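import Vale.Agent.P244.Final2

namespace Vale.Agent.Results.P244.A_full

open scoped ContDiff Manifold
open Vale.Agent.P244.St Vale.Agent.P255

theorem result :
    ∃ (n : ℕ) (M : Type) (_ : TopologicalSpace M) (_ : ChartedSpace (Euc n) M),
      4 ≤ n ∧ IsManifold (𝓡 n) ∞ M ∧ CompactSpace M ∧ T2Space M ∧ ConnectedSpace M ∧
      ∃ T > 0, ∃ g : ℝ → Metric (Euc n) M, RicciFlow g T ∧ BddScal g T ∧ ¬ Extends g T :=
  final

end Vale.Agent.Results.P244.A_full
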